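import Vale.Agent.P121.Marginal

/-!
An absolutely continuous marginal of finite Coulomb value without an optimal Monge plan.
-/

open MeasureTheory
open scoped ENNReal
open Vale.Agent.P121

namespace Vale.Agent.Results.P121.NoMongePlan

/-- There is a compactly supported probability measure on Euclidean three-space with bounded
density and finite three-marginal Coulomb value that has no optimal Monge plan. -/
theorem result :
    ∃ μ : Measure E3,
      IsProbabilityMeasure μ ∧
      μ ≪ (volume : Measure E3) ∧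
      (∃ M : ℝ≥0∞, M ≠ ⊤ ∧ μ ≤ M • (volume : Measure E3)) ∧
      (∃ s : Set E3, IsCompact s ∧ μ sᶜ = 0) ∧
      kantorovichValue μ < ⊤ ∧
      ¬ ∃ T₂ T₃ : E3 → E3, Measurable T₂ ∧ Measurable T₃ ∧
          μ.map T₂ = μ ∧ μ.map T₃ = μ ∧
          ∫⁻ x, coulombCost (x, T₂ x, T₃ x) ∂μ = kantorovichValue μ := by
  obtain ⟨S⟩ := exists_clusters
  exact ⟨S.mu, S.mu_prob, S.mu_ac, S.mu_le_volume, ⟨S.support, S.isCompact_support, S.mu_support⟩,
    S.value_le.trans_lt S.plan_cost_lt_top,
    fun ⟨T₂, T₃, a, b, c, d, e⟩ => S.no_monge T₂ T₃ a b c d e⟩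

end Vale.Agent.Results.P121.NoMongePlan
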